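import Vale.Agent.P216.Ch2.Ns2
import Vale.Agent.P216.Ch2.H133C.Ext

/-!
# P216-D, block [D-THOM] : coordinate cubes of a closed topological manifold
-/

open Set

namespace Vale.Agent.P216.Ch2.D246

open Vale.Agent.P216 Vale.Agent.P216.Ch2
open Vale.Agent.P216.D246

open Vale.Agent.P216.AS Vale.Agent.P216.Ch2.AS Vale.Agent.P216.H901 Vale.Agent.P216.Ch2.H901 Vale.Agent.P216.H83 Vale.Agent.P216.Ch2.H83 Vale.Agent.P216.H133C Vale.Agent.P216.Ch2.H133C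

/-- A closed coordinate cube of an `n`-manifold (`φ` maps `D` onto the cube `‖y‖ ≤ 2` for the
maximum norm of `Fin n → ℝ`; `ψ` is the inverse; the interior is open in `M`). -/
structure Cub (M : Type) [TopologicalSpace M] (n : ℕ) where
  D : Set M
  φ : M → Fin n → ℝ
  ψ : (Fin n → ℝ) → M
  closed : IsClosed D
  φ_cont : ContinuousOn φ D
  φ_le : ∀ x ∈ D, ‖φ x‖ ≤ 2
  ψ_cont : ContinuousOn ψ {y | ‖y‖ ≤ 2}
  ψ_mem : ∀ y, ‖y‖ ≤ 2 → ψ y ∈ D
  ψφ : ∀ x ∈ D, ψ (φ x) = x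
  φψ : ∀ y, ‖y‖ ≤ 2 → φ (ψ y) = y
  open_int : IsOpen {x | x ∈ D ∧ ‖φ x‖ < 2}

/-- Every point of `M` is the centre of a closed coordinate cube. -/
def LocEuc (M : Type) [TopologicalSpace M] (n : ℕ) : Prop :=
  ∀ x : M, ∃ c : Cub M n, x ∈ c.D ∧ c.φ x = 0

/-- Block [CUB]. -/
def CubGoal : Prop := ∀ (E : Type) [NormedAddCommGroup E] [NormedSpace ℝ E]
  [FiniteDimensional ℝ E] (M : Type) [TopologicalSpace M] [T2Space M] [ChartedSpace E M],
  LocEuc M (Module.finrank ℝ E)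

/-- Block [TOP0]: the cohomology of a compact subset of `ℝ^n` vanishes in the degrees `≥ n`
(and `≥ 1`). -/
def Top0Goal : Prop := ∀ (k : Type) [Field k], Ok k → ∀ (n : ℕ) (A : Set (Fin n → ℝ)),
  IsCompact A → ∀ q, n ≤ q → 1 ≤ q → NoH k A ∅ q

end Vale.Agent.P216.Ch2.D246
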