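import Vale.Agent.P216.Ch2.Ns2
import Vale.Agent.P216.Ch2.D246.Defs
import Vale.Agent.P216.Ch2.H550.Hp

/-!
# P216-D, block [D-THOM] : the cohomology of `Z × (I^n, ∂I^n)` in degree `n`
-/

set_option linter.all false

open Set

namespace Vale.Agent.P216.Ch2.D246

open Vale.Agent.P216 Vale.Agent.P216.Ch2
open Vale.Agent.P216.D246

open Vale.Agent.P216.AS Vale.Agent.P216.Ch2.AS Vale.Agent.P216.H901 Vale.Agent.P216.Ch2.H901 Vale.Agent.P216.H83 Vale.Agent.P216.Ch2.H83 Vale.Agent.P216.H133C Vale.Agent.P216.Ch2.H133C Vale.Agent.P216.C313 Vale.Agent.P216.Ch2.C313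

section Gen

variable {E E' E'' : Type} [MetricSpace E] [MetricSpace E'] [MetricSpace E''] {k : Type} [Field k]

/-- Mutually inverse maps of pairs induce bijections. -/
theorem pullR_bij {X A : Set E} {Y B : Set E'} {f : E → E'} {g : E' → E}
    (hf : IsMap (tr E) (tr E') X Y f) (hfA : MapsTo f A B) (hg : IsMap (tr E') (tr E) Y X g)
    (hgB : MapsTo g B A) (hA : A ⊆ X) (hB : B ⊆ Y) (h1 : ∀ x ∈ X, g (f x) = x)
    (h2 : ∀ y ∈ Y, f (g y) = y) (q : ℕ) :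
    Function.Bijective (pullR (on k) hf hA hfA q :
      Hr (tr E') (on k) Y B q →ₗ[k] Hr (tr E) (on k) X A q) := by
  constructor
  · rw [← LinearMap.ker_eq_bot, LinearMap.ker_eq_bot']
    intro z hz
    have e2 : pullR (on k) (hf.comp hg) hB (hfA.comp hgB) q z = z := by
      rw [pullR_eq_resR (χ := on k) subset_rfl subset_rfl hB (hf.comp hg) _ h2]
      exact Hinc_refl _ _ z
    rw [← e2, pullR_comp hf hg hB hA hgB hfA, hz, map_zero]
  · intro z
    refine ⟨pullR (on k) hg hB hgB q z, ?_⟩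
    have e2 : pullR (on k) (hg.comp hf) hA (hgB.comp hfA) q z = z := by
      rw [pullR_eq_resR (χ := on k) subset_rfl subset_rfl hA (hg.comp hf) _ h1]
      exact Hinc_refl _ _ z
    rw [← pullR_comp hg hf hA hB hfA hgB, e2]

/-- a constant map -/
theorem isMap_const {Z : Set E} {b : E} (hb : b ∈ Z) :
    IsMap (tr E') (tr E) (univ : Set E') Z (fun _ => b) where
  mapsX _ _ := hb
  eqv i := i.elim
  uc ε hε := ⟨1, one_pos, fun x _ y _ _ => by rw [dist_self]; exact hε⟩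

theorem isMap_cbE {n : ℕ} {Z : Set E} {Z' : Set E'} {f : E → E'}
    (h : IsMap (tr E) (tr E') Z Z' f) :
    IsMap (tr (E × (Fin n → ℝ))) (tr (E' × (Fin n → ℝ))) (cbE n Z) (cbE n Z') (Prod.map f id) where
  mapsX _ hp := ⟨h.mapsX hp.1, hp.2⟩
  eqv i := i.elim
  uc ε hε := by
    obtain ⟨δ, hδ, hu⟩ := h.uc ε hε
    refine ⟨min δ ε, lt_min hδ hε, fun x hx y hy hxy => ?_⟩
    rw [Prod.dist_eq] at hxy ⊢
    exact max_lt (hu _ hx.1 _ hy.1 ((le_max_left _ _).trans_lt (hxy.trans_le (min_le_left _ _))))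
      ((le_max_right _ _).trans_lt (hxy.trans_le (min_le_right _ _)))

theorem mapsTo_bdE {n : ℕ} {Z A : Set E} {Z' A' : Set E'} {f : E → E'} (h : MapsTo f Z Z')
    (h' : MapsTo f A A') : MapsTo (Prod.map f (id : (Fin n → ℝ) → (Fin n → ℝ))) (bdE n Z A)
      (bdE n Z' A') := by
  rintro p ⟨hp, h1 | h1⟩
  · exact ⟨⟨h hp.1, hp.2⟩, Or.inl (h' h1)⟩
  · exact ⟨⟨h hp.1, hp.2⟩, Or.inr h1⟩

end Gen

section Sus

variable {E E' : Type} [MetricSpace E] [MetricSpace E'] {k : Type} [Field k]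

/-- forgetting the last coordinate -/
def unF {n : ℕ} (p : E × (Fin (n + 1) → ℝ)) : (E × (Fin n → ℝ)) × ℝ :=
  ((p.1, fun i : Fin n => p.2 i.castSucc), p.2 (Fin.last n))

theorem isMap_unF {n : ℕ} {Z : Set E} :
    IsMap (tr _) (tr _) (cbE (n + 1) Z) (cyl (cbE n Z)) (unF (E := E) (n := n)) where
  mapsX p hp := ⟨⟨hp.1, fun i => hp.2 _⟩, hp.2 _⟩
  eqv i := i.elim
  uc ε hε := ⟨ε, hε, fun x _ y _ h => by
    rw [Prod.dist_eq] at h ⊢
    have h2 : ∀ i, dist (x.2 i) (y.2 i) < ε := fun i =>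
      (dist_le_pi_dist x.2 y.2 i).trans_lt ((le_max_right _ _).trans_lt h)
    refine max_lt ?_ (h2 _)
    change dist ((x.1, fun i : Fin n => x.2 i.castSucc) : E × (Fin n → ℝ))
      (y.1, fun i : Fin n => y.2 i.castSucc) < ε
    rw [Prod.dist_eq]
    exact max_lt ((le_max_left _ _).trans_lt h) ((dist_pi_lt_iff hε).2 fun i => h2 _)⟩

theorem isMap_snF {n : ℕ} {Z : Set E} :
    IsMap (tr _) (tr _) (cyl (cbE n Z)) (cbE (n + 1) Z) (snF (E := E) (n := n)) where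
  mapsX p hp := by
    refine ⟨hp.1.1, fun i => ?_⟩
    refine Fin.lastCases ?_ (fun i => ?_) i
    · rw [snF_last]
      exact hp.2
    · rw [snF_cast]
      exact hp.1.2 i
  eqv i := i.elim
  uc ε hε := ⟨ε, hε, fun x _ y _ h => by
    rw [Prod.dist_eq] at h
    have h1 := (le_max_left _ _).trans_lt h
    rw [Prod.dist_eq] at h1
    rw [Prod.dist_eq]
    refine max_lt ((le_max_left _ _).trans_lt h1) ((dist_pi_lt_iff hε).2 fun i => ?_)
    refine Fin.lastCases ?_ (fun i => ?_) i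
    · rw [snF_last, snF_last]
      exact (le_max_right _ _).trans_lt h
    · rw [snF_cast, snF_cast]
      exact (dist_le_pi_dist _ _ i).trans_lt ((le_max_right _ _).trans_lt h1)⟩

theorem mapsTo_unF {n : ℕ} {Z A : Set E} :
    MapsTo (unF (E := E) (n := n)) (bdE (n + 1) Z A) (bcyl (cbE n Z) (bdE n Z A)) := by
  rintro p ⟨hp, h' | ⟨i, hi⟩⟩
  · exact Or.inr ⟨⟨⟨hp.1, fun i => hp.2 _⟩, Or.inl h'⟩, hp.2 _⟩
  · revert hi
    refine Fin.lastCases (fun hi => ?_) (fun i hi => ?_) i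
    · exact Or.inl ⟨⟨hp.1, fun i => hp.2 _⟩, hi⟩
    · exact Or.inr ⟨⟨⟨hp.1, fun i => hp.2 _⟩, Or.inr ⟨i, hi⟩⟩, hp.2 _⟩

theorem mapsTo_snF {n : ℕ} {Z A : Set E} :
    MapsTo (snF (E := E) (n := n)) (bcyl (cbE n Z) (bdE n Z A)) (bdE (n + 1) Z A) := by
  rintro p (⟨h1, h3⟩ | ⟨⟨h1, h3⟩, h4⟩)
  · refine ⟨⟨h1.1, fun i => ?_⟩, Or.inr ⟨Fin.last n, ?_⟩⟩
    · refine Fin.lastCases ?_ (fun i => ?_) i
      · rw [snF_last]
        rcases h3 with h | h
        · rw [h]; exact ⟨le_rfl, zero_le_one⟩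
        · rw [show p.2 = 1 from h]; exact ⟨zero_le_one, le_rfl⟩
      · rw [snF_cast]
        exact h1.2 i
    · rw [snF_last]
      exact h3
  · refine ⟨⟨h1.1, fun i => ?_⟩, ?_⟩
    · refine Fin.lastCases ?_ (fun i => ?_) i
      · rw [snF_last]
        exact h4
      · rw [snF_cast]
        exact h1.2 i
    · rcases h3 with h3 | ⟨i, hi⟩
      · exact Or.inl h3
      · refine Or.inr ⟨i.castSucc, ?_⟩
        rw [snF_cast]
        exact hi

theorem snF_unF {n : ℕ} (p : E × (Fin (n + 1) → ℝ)) : snF (unF p) = p := by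
  obtain ⟨e, y⟩ := p
  refine Prod.ext rfl ?_
  funext i
  refine Fin.lastCases ?_ (fun i => ?_) i
  · exact Fin.snoc_last (α := fun _ => ℝ) _ _
  · exact Fin.snoc_castSucc (α := fun _ => ℝ) _ _ _

theorem unF_snF {n : ℕ} (p : (E × (Fin n → ℝ)) × ℝ) : unF (snF p) = p := by
  refine Prod.ext (Prod.ext rfl ?_) ?_
  · funext i
    exact snF_cast p i
  · exact snF_last p

theorem sub_cyl {n : ℕ} {Z A : Set E} : bcyl (cbE n Z) (bdE n Z A) ⊆ cyl (cbE n Z) :=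
  bcyl_subset bdE_sub

/-- The suspension `H^{q+1}(Z × I^{n+1}, ..) → H^q(Z × I^n, ..)`. -/
noncomputable def susC (h2 : Ok k) (n : ℕ) (Z A : Set E) (q : ℕ) :
    Hr (tr _) (on k) (cbE (n + 1) Z) (bdE (n + 1) Z A) (q + 1) →ₗ[k]
      Hr (tr _) (on k) (cbE n Z) (bdE n Z A) q :=
  sus h2 (cbE n Z) (bdE n Z A) q ∘ₗ pullR (on k) isMap_snF sub_cyl mapsTo_snF (q + 1)

theorem susC_bij (h2 : Ok k) (n : ℕ) (Z A : Set E) (q : ℕ) :
    Function.Bijective (susC h2 n Z A q) :=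
  (sus_bijective h2 bdE_sub q).comp (pullR_bij isMap_snF mapsTo_snF isMap_unF mapsTo_unF sub_cyl
    bdE_sub (fun p _ => unF_snF p) (fun p _ => snF_unF p) (q + 1))

theorem susC_nat (h2 : Ok k) (n : ℕ) {Z A : Set E} {Z' A' : Set E'} {f : E → E'}
    (h : IsMap (tr E) (tr E') Z Z' f) (hf : MapsTo f A A') (q : ℕ)
    (x : Hr (tr _) (on k) (cbE (n + 1) Z') (bdE (n + 1) Z' A') (q + 1)) :
    susC h2 n Z A q (pullR (on k) (isMap_cbE h) bdE_sub (mapsTo_bdE h.mapsX hf) (q + 1) x) =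
      pullR (on k) (isMap_cbE h) bdE_sub (mapsTo_bdE h.mapsX hf) q (susC h2 n Z' A' q x) := by
  have e := sus_pullR h2 (isMap_cbE (n := n) h) (bdE_sub (Z := Z) (A := A))
    (mapsTo_bdE (n := n) h.mapsX hf) q (pullR (on k) isMap_snF sub_cyl mapsTo_snF (q + 1) x)
  change sus h2 _ _ q (pullR (on k) isMap_snF sub_cyl mapsTo_snF (q + 1)
    (pullR (on k) (isMap_cbE h) bdE_sub (mapsTo_bdE h.mapsX hf) (q + 1) x)) = _
  rw [show susC h2 n Z' A' q x = sus h2 (cbE n Z') (bdE n Z' A') q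
    (pullR (on k) isMap_snF sub_cyl mapsTo_snF (q + 1) x) from rfl, ← e]
  congr 1
  rw [← pullR_comp (isMap_cbE h) isMap_snF sub_cyl bdE_sub mapsTo_snF (mapsTo_bdE h.mapsX hf),
    ← pullR_comp isMap_snF (isMap_cyl (isMap_cbE h)) sub_cyl sub_cyl
      (mapsTo_bcyl (isMap_cbE h).mapsX (mapsTo_bdE h.mapsX hf)) mapsTo_snF]
  rfl

end Sus

section Zero

variable {E : Type} [MetricSpace E] {k : Type} [Field k]

theorem cyl0 (y : Fin 0 → ℝ) : y = fun i => i.elim0 := funext fun i => i.elim0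

/-- `H^0 (pt) = k` -/
theorem point_equiv : Nonempty (Hr (tr (Unit × (Fin 0 → ℝ))) (on k) (cbE 0 (univ : Set Unit))
    (bdE 0 univ ∅) 0 ≃ₗ[k] k) := by
  classical
  let p₀ : Unit × (Fin 0 → ℝ) := ((), fun i => i.elim0)
  have hp : ∀ p : Unit × (Fin 0 → ℝ), p = p₀ := fun p => Prod.ext rfl (cyl0 _)
  have hx : ∀ x : Fin 1 → Unit × (Fin 0 → ℝ), x = fun _ => p₀ := fun x => funext fun i => hp _
  have hm : p₀ ∈ cbE 0 (univ : Set Unit) := ⟨mem_univ _, fun i => i.elim0⟩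
  have he : bdE 0 (univ : Set Unit) ∅ = ∅ := by
    ext p
    simp only [bdE, mem_empty_iff_false, false_or, IsEmpty.exists_iff, and_false, mem_ofPred_eq]
  let L : Hr (tr (Unit × (Fin 0 → ℝ))) (on k) (cbE 0 (univ : Set Unit)) (bdE 0 univ ∅) 0 →ₗ[k] k :=
    H.lift ((LinearMap.proj (R := k) (φ := fun _ : Fin (0 + 1) → Unit × (Fin 0 → ℝ) => k)
      fun _ => p₀) ∘ₗ (Zc _ _ 0).subtype) (by
      intro x hx hB
      rw [mem_Bc_zero] at hB
      obtain ⟨-, ε, hε, h⟩ := hB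
      exact h _ ⟨fun _ => hm, fun _ _ => by rw [dist_self]; exact hε⟩)
  refine ⟨LinearEquiv.ofBijective L ⟨?_, ?_⟩⟩
  · rw [← LinearMap.ker_eq_bot, LinearMap.ker_eq_bot']
    intro z hz
    obtain ⟨c, hc, rfl⟩ := H.exists_mk z
    have h0 : c (fun _ => p₀) = 0 := hz
    rw [H.mk_eq_zero, mem_Bc_zero]
    exact ⟨eqv_triv _, 1, one_pos, fun x _ => by rw [hx x]; exact h0⟩
  · intro a
    have hc : (fun _ => a : (Fin (0 + 1) → Unit × (Fin 0 → ℝ)) → k) ∈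
        Zc (Zr (tr (Unit × (Fin 0 → ℝ))) (on k) (cbE 0 (univ : Set Unit)) (bdE 0 univ ∅))
          (Zr (tr (Unit × (Fin 0 → ℝ))) (on k) (cbE 0 (univ : Set Unit)) (cbE 0 univ)) 0 := by
      rw [mem_Zc_rel, he]
      refine ⟨eqv_triv _, ⟨1, one_pos, fun x hx => absurd (hx.1 0) (notMem_empty _)⟩, 1, one_pos,
        fun x hx => ?_⟩
      rw [P265.AS.d_succ_apply, P265.AS.d_zero_apply]
      exact sub_self a
    exact ⟨H.mk _ hc, rfl⟩

/-- A class of degree `0` which vanishes at all the points vanishes. -/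
theorem zero_uniq {Z : Set E} (z : Hr (tr (E × (Fin 0 → ℝ))) (on k) (cbE 0 Z) (bdE 0 Z ∅) 0)
    (h : ∀ (b : E) (hb : b ∈ Z), pullR (on k) (isMap_cbE (isMap_const (E' := Unit) hb)) bdE_sub
      (mapsTo_bdE (isMap_const hb).mapsX (mapsTo_empty _ ∅)) 0 z = 0) : z = 0 := by
  obtain ⟨c, hc, rfl⟩ := H.exists_mk z
  rw [H.mk_eq_zero, mem_Bc_zero]
  refine ⟨eqv_triv _, 1, one_pos, fun x hx => ?_⟩
  have h1 := h (x 0).1 (hx.1 0).1
  rw [pullR_mk, H.mk_eq_zero, mem_Bc_zero] at h1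
  obtain ⟨-, ε, hε, h1⟩ := h1
  have h2 := h1 (fun _ => ((), fun i => i.elim0)) ⟨fun _ => ⟨mem_univ _, fun i => i.elim0⟩,
    fun _ _ => by rw [dist_self]; exact hε⟩
  have h3 : c x = c (Prod.map (fun _ : Unit => (x 0).1) id ∘
      fun _ => ((), fun i : Fin 0 => i.elim0)) := by
    congr 1
    funext i
    rw [show i = 0 from Fin.fin_one_eq_zero i]
    exact Prod.ext rfl (cyl0 _)
  rw [h3]
  exact h2

end Zero

section Main

variable {E : Type} [MetricSpace E] {k : Type} [Field k]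

/-- `H^n (I^n, ∂I^n) = k` -/
theorem cube_equiv (h2 : Ok k) : ∀ n : ℕ,
    Nonempty (Hr (tr (Unit × (Fin n → ℝ))) (on k) (cbE n (univ : Set Unit)) (bdE n univ ∅) n ≃ₗ[k] k)
  | 0 => point_equiv
  | n + 1 => by
    obtain ⟨e⟩ := cube_equiv h2 n
    exact ⟨(LinearEquiv.ofBijective _ (susC_bij h2 n (univ : Set Unit) ∅ n)).trans e⟩

/-- Uniqueness: a class of degree `n` of `Z × (I^n, ∂I^n)` which vanishes on all the slices
`{b} × (I^n, ∂I^n)` vanishes. -/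
theorem cube_uniq (h2 : Ok k) {Z : Set E} : ∀ (n : ℕ)
    (z : Hr (tr (E × (Fin n → ℝ))) (on k) (cbE n Z) (bdE n Z ∅) n)
    (h : ∀ (b : E) (hb : b ∈ Z), pullR (on k) (isMap_cbE (isMap_const (E' := Unit) hb)) bdE_sub
      (mapsTo_bdE (isMap_const hb).mapsX (mapsTo_empty _ ∅)) n z = 0), z = 0
  | 0, z, h => zero_uniq z h
  | n + 1, z, h => by
    apply (susC_bij h2 n Z ∅ n).1
    rw [map_zero]
    refine cube_uniq h2 n _ fun b hb => ?_
    rw [← susC_nat h2 n (isMap_const hb) (mapsTo_empty _ ∅) n z]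
    rw [h b hb, map_zero]

end Main

end Vale.Agent.P216.Ch2.D246
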