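import Vale.Agent.P216.Ch2.Ns2
import Vale.Agent.P216.Ch2.D246.Chart
import Vale.Agent.P216.Ch2.H670.Top0

/-!
# P216-D, block [D-THOM] : the top cohomology of a closed connected manifold
-/

set_option linter.all false

open Set

namespace Vale.Agent.P216.Ch2.D246

open Vale.Agent.P216 Vale.Agent.P216.Ch2
open Vale.Agent.P216.D246

open Vale.Agent.P216.AS Vale.Agent.P216.Ch2.AS Vale.Agent.P216.H901 Vale.Agent.P216.Ch2.H901 Vale.Agent.P216.H83 Vale.Agent.P216.Ch2.H83 Vale.Agent.P216.H133C Vale.Agent.P216.Ch2.H133C Vale.Agent.P216.C313 Vale.Agent.P216.Ch2.C313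

section Gen

variable {E : Type} [MetricSpace E] {k : Type} [Field k]

theorem lesA_resR {X A B : Set E} (h : B ⊆ A) (q : ℕ) (x : Hr (tr E) (on k) X A q) :
    lesA k X B q (resR subset_rfl h q x) = lesA k X A q x := by
  obtain ⟨c, hc, rfl⟩ := H.exists_mk x
  rfl

theorem noH_self (X : Set E) (q : ℕ) : NoH k X X q := by
  intro z
  obtain ⟨c, hc, rfl⟩ := H.exists_mk z
  rw [H.mk_eq_zero, mem_Bc]
  exact ⟨c, hc.1, 0, Submodule.zero_mem _, add_zero c⟩

/-- `z = z₁ + z₂` -/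
theorem decomp (h2 : Ok k) {X A L : Set E} (cA : IsCompact A) (cL : IsCompact L)
    (hA : A ⊆ X) (hL : L ⊆ X) (q : ℕ) (h0 : NoH k X (A ∪ L) (q + 1))
    (z : Hr (tr E) (on k) X (A ∩ L) q) :
    ∃ (z1 : Hr (tr E) (on k) X A q) (z2 : Hr (tr E) (on k) X L q),
      z = resR subset_rfl inter_subset_left q z1 + resR subset_rfl inter_subset_right q z2 := by
  obtain ⟨z1, h1⟩ := ext_step h2 cA cL hA hL rfl inter_subset_left q h0 (resR hL subset_rfl q z)
  have e := exact_mid (n := q) (Zr_anti (a := tr E) (χ := on k) (le_refl X) hL)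
    (Zr_anti (a := tr E) (χ := on k) (le_refl X) (inter_subset_right : A ∩ L ⊆ L))
  set z' := z - resR subset_rfl inter_subset_left q z1 with hz'
  have a2 : resR hL subset_rfl q z' = 0 := by
    rw [hz', map_sub, resR_resR, h1, sub_self]
  have a1 : Hinc (zr_le X L (A ∩ L)) (zr_le X L L) q (Hinc (le_refl _)
      (Zr_anti (le_refl X) hL) q z') = resR hL subset_rfl q z' := by
    obtain ⟨c, hc, hc'⟩ := H.exists_mk z'
    rw [← hc']
    rfl
  have hw : Hinc (le_refl _) (Zr_anti (a := tr E) (χ := on k) (le_refl X) hL) q z' = 0 := by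
    have a3 := congrArg (Hinc (zr_le L X (A ∩ L)) (zr_le L X L) q) (a1.trans a2)
    rw [Hinc_comp, Hinc_refl, map_zero] at a3
    exact a3
  obtain ⟨z2, hz2⟩ := (e z').1 hw
  refine ⟨z1, z2, ?_⟩
  rw [← sub_eq_iff_eq_add']
  exact hz2.symm

theorem noH_cpt (h2 : Ok k) {n : ℕ} (hn : 1 ≤ n) {Y B : Set (Fin n → ℝ)}
    (hY : IsCompact Y) (hB : IsCompact B) (h : B ⊆ Y) : NoH k Y B (n + 1) := by
  intro z
  have h1 : lesA k Y B (n + 1) z = 0 :=
    H670.Top0.top0Goal k h2 n Y hY (n + 1) (Nat.le_succ n) (by omega) _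
  obtain ⟨w, rfl⟩ := (les_ex3 k h n z).1 h1
  rw [show w = 0 from H670.Top0.top0Goal k h2 n B hB n le_rfl hn _, map_zero]

end Gen

namespace Cub

variable {M : Type} [MetricSpace M] [CompactSpace M] {n : ℕ} {k : Type} [Field k] {c c' : Cub M n}
  {v w : Fin n → ℝ} {δ η : ℝ}

theorem compact_A1 (hb : ‖v‖ + δ ≤ 2) : IsCompact (c.A1 v δ) := by
  have h := (compact_Ad (c := c) (y := fun _ : Unit => v) (δ := δ) (Z := univ) isCompact_univ
    continuousOn_const fun _ _ => hb).image continuous_fst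
  have e : c.A1 v δ = Prod.fst '' c.Ad (fun _ : Unit => v) δ univ := by
    ext a
    constructor
    · exact fun ha => ⟨(a, ()), ⟨mem_univ _, ha⟩, rfl⟩
    · rintro ⟨p, hp, rfl⟩
      exact hp.2
  rw [e]
  exact h

/-- the closed box -/
def Bx (c : Cub M n) (δ : ℝ) : Set M := {a | a ∈ c.D ∧ ‖c.φ a‖ ≤ δ}

theorem compact_Bx : IsCompact (c.Bx δ) := by
  have h := (compact_Wd (c := c) (y := fun _ : Unit => (0 : Fin n → ℝ)) (δ := δ) (Z := univ)
    isCompact_univ continuousOn_const).image continuous_fst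
  have e : c.Bx δ = Prod.fst '' c.Wd (fun _ : Unit => (0 : Fin n → ℝ)) δ univ := by
    ext a
    constructor
    · exact fun ha => ⟨(a, ()), ⟨mem_univ _, ha.1, by simpa using ha.2⟩, rfl⟩
    · rintro ⟨p, hp, rfl⟩
      exact ⟨hp.2.1, by simpa using hp.2.2⟩
  rw [e]
  exact h

theorem noH_Bx (h2 : Ok k) (hn : 1 ≤ n) (hδ : δ ≤ 2) {N : Set M} (hN : IsCompact N)
    (hND : N ⊆ c.Bx δ) : NoH k (c.Bx δ) N (n + 1) := by
  have cφ : ContinuousOn c.φ (c.Bx δ) := c.φ_cont.mono fun a ha => ha.1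
  have cI : IsCompact {u : Fin n → ℝ | ‖u‖ ≤ δ} := by
    have := isCompact_closedBall (0 : Fin n → ℝ) δ
    have e : {u : Fin n → ℝ | ‖u‖ ≤ δ} = Metric.closedBall 0 δ := by
      ext u
      simp
    rw [e]
    exact this
  have cψ : ContinuousOn c.ψ {u : Fin n → ℝ | ‖u‖ ≤ δ} := c.ψ_cont.mono fun u hu => le_trans hu hδ
  have hB : c.φ '' N ⊆ {u : Fin n → ℝ | ‖u‖ ≤ δ} := by
    rintro _ ⟨a, ha, rfl⟩
    exact (hND ha).2
  refine noH_of_inv (isMap_of compact_Bx cφ fun a ha => ha.2) (B := c.φ '' N)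
    (fun a ha => mem_image_of_mem _ ha) (isMap_of cI cψ fun u hu => ⟨c.ψ_mem _ (le_trans hu hδ),
      ?_⟩) ?_ hND hB (fun a ha => c.ψφ a ha.1) (n + 1)
    (noH_cpt h2 hn cI (hN.image_of_continuousOn (cφ.mono hND)) hB)
  · rw [c.φψ u (le_trans hu hδ)]
    exact hu
  · rintro _ ⟨a, ha, rfl⟩
    rw [c.ψφ a (hND ha).1]
    exact ha

theorem noH_top (h2 : Ok k) (hn : 1 ≤ n) {L : Set M} (cL : IsCompact L) :
    NoH k (univ : Set M) (c.A1 0 1 ∪ L) (n + 1) := by
  have cA : IsCompact (c.A1 0 1 ∪ L) := (compact_A1 (by rw [norm_zero]; norm_num)).union cL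
  refine noH_exc h2 cA (compact_Bx (c := c) (δ := 1)) ?_ rfl (n + 1)
    (noH_Bx h2 hn one_le_two (cA.inter compact_Bx) inter_subset_right)
  ext a
  refine ⟨fun _ => ?_, fun _ => mem_univ _⟩
  by_cases h : a ∈ c.D ∧ ‖c.φ a‖ ≤ 1
  · exact Or.inr h
  · refine Or.inl (Or.inl fun hD => ?_)
    rw [sub_zero]
    by_contra hcon
    exact h ⟨hD, (not_le.1 hcon).le⟩

theorem A1_anti (h : ‖v - w‖ + δ ≤ η) : c.A1 w η ⊆ c.A1 v δ := by
  intro a ha hD
  have h1 := ha hD
  have h2 : ‖c.φ a - w‖ ≤ ‖c.φ a - v‖ + ‖v - w‖ := by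
    have := norm_add_le (c.φ a - v) (v - w)
    rwa [sub_add_sub_cancel] at this
  linarith

/-- **Box inclusions.** -/
theorem th_res (hδ : 0 < δ) (h : ‖v - w‖ + δ ≤ η) (hb : ‖w‖ + η ≤ 2) (hη : 0 ≤ η)
    (hb' : ‖v‖ + δ ≤ 2) (q : ℕ) (x : Hr (tr M) (on k) univ (c.A1 v δ) q) :
    pullR (on k) (isMap_th (c := c) hη hb) bdE_sub (mapsTo_th hη hb) q
      (resR subset_rfl (A1_anti h) q x) =
    pullR (on k) (isMap_th (c := c) hδ.le hb') bdE_sub (mapsTo_th hδ.le hb') q x := by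
  have e : pullR (on k) (isMap_th (c := c) hη hb) bdE_sub (mapsTo_th hη hb) q
      (resR subset_rfl (A1_anti h) q x) =
      pullR (on k) (isMap_th (c := c) hη hb) bdE_sub (fun p hp => A1_anti h (mapsTo_th hη hb hp))
        q x := by
    obtain ⟨f, hf, rfl⟩ := H.exists_mk x
    rfl
  rw [e]
  symm
  have hn2 : ∀ s ∈ Icc (0 : ℝ) 1, ∀ p ∈ cbE n (univ : Set Unit),
      ‖(fun i => (v i + s * (w i - v i)) + (δ + s * (η - δ)) * (2 * p.2 i - 1))‖ ≤ 2 := by
    intro s hs p hp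
    have h1 : 0 ≤ δ + s * (η - δ) := by
      nlinarith [hs.1, hs.2]
    have h3 : ‖fun i => v i + s * (w i - v i)‖ + (δ + s * (η - δ)) ≤ 2 := by
      have h4 : (fun i => v i + s * (w i - v i)) = (1 - s) • v + s • w := by
        funext i
        simp only [Pi.add_apply, Pi.smul_apply, smul_eq_mul]
        ring
      have h5 : ‖(1 - s) • v + s • w‖ ≤ (1 - s) * ‖v‖ + s * ‖w‖ := by
        refine (norm_add_le _ _).trans ?_
        rw [norm_smul, norm_smul, Real.norm_of_nonneg hs.1, Real.norm_of_nonneg (by linarith [hs.2])]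
      rw [h4]
      nlinarith [hs.1, hs.2]
    exact nrm_le2 h1 h3 hp.2
  have hp : Hp (cbE n (univ : Set Unit)) (bdE n univ ∅) (univ : Set M) (c.A1 v δ)
      (th c v δ) (th c w η) := by
    refine H550.hp_of_cont (D := fun s p => c.ψ (fun i => (v i + s * (w i - v i)) +
      (δ + s * (η - δ)) * (2 * p.2 i - 1))) (isCompact_cbE isCompact_univ) ?_
      (fun _ _ _ _ => mem_univ _) ?_ (fun p _ => ?_) fun p _ => ?_
    · refine c.ψ_cont.comp (by fun_prop) fun q hq => hn2 _ hq.1 _ hq.2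
    · rintro s hs p ⟨hp, hp' | ⟨i, hi⟩⟩
      · exact hp'.elim
      intro _
      rw [c.φψ _ (hn2 s hs p hp)]
      have h1 : 0 ≤ δ + s * (η - δ) := by
        nlinarith [hs.1, hs.2]
      have h3 := nrm_ge (v := fun i => v i + s * (w i - v i)) h1 hi
      have h4 : ‖(fun i => v i + s * (w i - v i)) - v‖ = s * ‖v - w‖ := by
        have : (fun i => v i + s * (w i - v i)) - v = s • (w - v) := by
          funext i
          simp only [Pi.sub_apply, Pi.smul_apply, smul_eq_mul]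
          ring
        rw [this, norm_smul, Real.norm_of_nonneg hs.1, norm_sub_rev]
      have h5 := norm_add_le ((fun i => (v i + s * (w i - v i)) + (δ + s * (η - δ)) *
        (2 * p.2 i - 1)) - v) (v - fun i => v i + s * (w i - v i))
      rw [sub_add_sub_cancel, norm_sub_rev v, h4] at h5
      nlinarith [hs.1, hs.2]
    · simp [th]
    · simp [th]
  exact LinearMap.congr_fun (hp.pullR_eq bdE_sub (isMap_th (c := c) hδ.le hb')
    (mapsTo_th hδ.le hb') (isMap_th (c := c) hη hb)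
    (fun p hp => A1_anti h (mapsTo_th hη hb hp)) q) x

end Cub

end Vale.Agent.P216.Ch2.D246
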