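import Vale.Agent.P216.Ch2.Ns2
import Vale.Agent.P216.Ch2.D246.Span2

/-!
# P216-D, block [D-THOM] : the top cohomology of a closed connected manifold, 3
-/

set_option linter.all false

open Set Filter Topology

namespace Vale.Agent.P216.Ch2.D246

open Vale.Agent.P216 Vale.Agent.P216.Ch2
open Vale.Agent.P216.D246

open Vale.Agent.P216.AS Vale.Agent.P216.Ch2.AS Vale.Agent.P216.H901 Vale.Agent.P216.Ch2.H901 Vale.Agent.P216.H83 Vale.Agent.P216.Ch2.H83 Vale.Agent.P216.H133C Vale.Agent.P216.Ch2.H133C Vale.Agent.P216.C313 Vale.Agent.P216.Ch2.C313 Cub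

variable {M : Type} [MetricSpace M] [CompactSpace M] {n : ℕ} {k : Type} [Field k]

/-- A chart class is a non zero multiple of `ω`. -/
theorem exists_mul [ConnectedSpace M] (h2 : Ok k) (hn : 1 ≤ n) (loc : LocEuc M n)
    {ω : Hr (tr M) (on k) (univ : Set M) ∅ n} (hω : ω ≠ 0)
    {ι : Hr (tr (Unit × (Fin n → ℝ))) (on k) (cbE n (univ : Set Unit)) (bdE n univ ∅) n}
    (hι : ∀ x, ∃ a : k, x = a • ι) {c : Cub M n} {s : Hr (tr M) (on k) (univ : Set M) ∅ n}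
    (hs : IsS ι c s) : ∃ a : k, a ≠ 0 ∧ ω = a • s := by
  obtain ⟨a, ha⟩ := span_top h2 hn hι loc hs ω
  refine ⟨a, fun h => hω ?_, ha⟩
  rw [ha, h, zero_smul]

/-- **(T1)** -/
theorem top_eq [ConnectedSpace M] (h2 : Ok k) (hn : 1 ≤ n) (loc : LocEuc M n)
    {ω : Hr (tr M) (on k) (univ : Set M) ∅ n} (hω : ω ≠ 0)
    (z : Hr (tr M) (on k) (univ : Set M) ∅ n) : ∃ a : k, z = a • ω := by
  obtain ⟨ι, hι⟩ := exists_gen (k := k) h2 n
  obtain ⟨b⟩ : Nonempty M := inferInstance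
  obtain ⟨c, -, -⟩ := loc b
  obtain ⟨s, hs⟩ := exists_s h2 ι c
  obtain ⟨a, ha, ha'⟩ := exists_mul h2 hn loc hω hι hs
  obtain ⟨e, he⟩ := span_top h2 hn hι loc hs z
  refine ⟨e * a⁻¹, ?_⟩
  rw [he, ha', smul_smul, mul_assoc, inv_mul_cancel₀ ha, mul_one]

/-- **(T3)** -/
theorem lesA_box_bij [ConnectedSpace M] (h2 : Ok k) (hn : 1 ≤ n) (loc : LocEuc M n)
    {ω : Hr (tr M) (on k) (univ : Set M) ∅ n} (hω : ω ≠ 0) (c : Cub M n) (v : Fin n → ℝ) (δ : ℝ)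
    (hδ : 0 < δ) (hb : ‖v‖ + δ ≤ 2) :
    Function.Bijective (lesA k (univ : Set M) (c.A1 v δ) n) := by
  obtain ⟨ι, hι⟩ := exists_gen (k := k) h2 n
  obtain ⟨s, hs⟩ := exists_s h2 ι c
  obtain ⟨a, ha, ha'⟩ := exists_mul h2 hn loc hω hι hs
  have hs0 : s ≠ 0 := fun h => hω (by rw [ha', h, smul_zero])
  have hbij := th_bij (c := c) (k := k) h2 hδ hb n
  constructor
  · rw [← LinearMap.ker_eq_bot, LinearMap.ker_eq_bot']
    intro x hx
    obtain ⟨e, he⟩ := hι (pullR (on k) (isMap_th (c := c) hδ.le hb) bdE_sub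
      (mapsTo_th hδ.le hb) n x)
    rw [hs v δ hδ hb x e he, smul_eq_zero, or_iff_left hs0] at hx
    rw [hx, zero_smul] at he
    exact hbij.1 (by rw [he, map_zero])
  · intro z
    obtain ⟨e, he⟩ := span_top h2 hn hι loc hs z
    obtain ⟨x, hx⟩ := hbij.2 (e • ι)
    exact ⟨x, by rw [hs v δ hδ hb x e hx, he]⟩

/-- **(BI)** -/
theorem exists_iota [ConnectedSpace M] (h2 : Ok k) (hn : 1 ≤ n) (loc : LocEuc M n)
    {ω : Hr (tr M) (on k) (univ : Set M) ∅ n} (hω : ω ≠ 0) (c : Cub M n) :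
    ∃ ι : Hr (tr (Unit × (Fin n → ℝ))) (on k) (cbE n (univ : Set Unit)) (bdE n univ ∅) n,
      ∀ (v : Fin n → ℝ) (δ : ℝ) (hδ : 0 < δ) (hb : ‖v‖ + δ ≤ 2)
        (x : Hr (tr M) (on k) univ (c.A1 v δ) n),
        pullR (on k) (isMap_th hδ.le hb) bdE_sub (mapsTo_th hδ.le hb) n x = ι →
          lesA k univ (c.A1 v δ) n x = ω := by
  obtain ⟨ι, hι⟩ := exists_gen (k := k) h2 n
  obtain ⟨s, hs⟩ := exists_s h2 ι c
  obtain ⟨a, ha, ha'⟩ := exists_mul h2 hn loc hω hι hs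
  exact ⟨a • ι, fun v δ hδ hb x hx => by rw [hs v δ hδ hb x a hx, ha']⟩

end Vale.Agent.P216.Ch2.D246
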