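import Vale.Agent.P216.Ch2.Ns2
import Vale.Agent.P216.Ch2.D246.Span3
import Vale.Agent.P216.D246.Mono
import Vale.Agent.P216.Ch2.H456D.Glue

/-!
# P216-D, block [D-NDH] : orientation of a simply connected manifold by the classes of the boxes
-/

set_option linter.all false

open Set Filter Topology

namespace Vale.Agent.P216.Ch2.D246

open Vale.Agent.P216 Vale.Agent.P216.Ch2
open Vale.Agent.P216.D246

open Vale.Agent.P216.AS Vale.Agent.P216.Ch2.AS Vale.Agent.P216.H901 Vale.Agent.P216.Ch2.H901 Vale.Agent.P216.H83 Vale.Agent.P216.Ch2.H83 Vale.Agent.P216.H133C Vale.Agent.P216.Ch2.H133C Vale.Agent.P216.C313 Vale.Agent.P216.Ch2.C313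

namespace Cub

section Box

variable {M : Type} [MetricSpace M] [CompactSpace M] {n : ℕ} {c c' c'' : Cub M n}
  {v w : Fin n → ℝ} {δ η : ℝ}

/-- A small box around a point outside of a closed set. -/
theorem small_box {N : Set M} (hN : IsClosed N) {b : M} (hb : b ∈ c.D) (hb' : ‖c.φ b‖ < 2)
    (hbN : b ∉ N) {η₀ : ℝ} (h0 : 0 < η₀) :
    ∃ η, 0 < η ∧ η ≤ η₀ ∧ ‖c.φ b‖ + η ≤ 2 ∧ N ⊆ c.A1 (c.φ b) η := by
  have h2 : Nᶜ ∈ 𝓝 (c.ψ (c.φ b)) := by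
    rw [c.ψφ b hb]
    exact hN.isOpen_compl.mem_nhds hbN
  have h3 := (c.ψ_cont (c.φ b) hb'.le) h2
  rw [mem_map, mem_nhdsWithin_iff_exists_mem_nhds_inter] at h3
  obtain ⟨V, hV, hV'⟩ := h3
  obtain ⟨η, hη, hη'⟩ := Metric.mem_nhds_iff.1 hV
  refine ⟨min (min η η₀) (2 - ‖c.φ b‖), lt_min (lt_min hη h0) (by linarith),
    (min_le_left _ _).trans (min_le_right _ _), ?_, ?_⟩
  · have := min_le_right (min η η₀) (2 - ‖c.φ b‖)
    linarith
  · intro a ha haD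
    by_contra hcon
    rw [not_le] at hcon
    have h4 : c.φ a ∈ Metric.ball (c.φ b) η := by
      rw [Metric.mem_ball, dist_eq_norm]
      exact hcon.trans_le ((min_le_left _ _).trans (min_le_left _ _))
    have h5 := hV' ⟨hη' h4, c.φ_le a haD⟩
    have h6 : c.ψ (c.φ a) ∈ Nᶜ := h5
    rw [c.ψφ a haD] at h6
    exact h6 ha

theorem notMem_A1 {b : M} (hb : b ∈ c.D) (h : ‖c.φ b - v‖ < δ) : b ∉ c.A1 v δ := fun hh =>
  absurd (hh hb) (not_le.2 h)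

theorem of_notMem_A1 {b : M} (h : b ∉ c.A1 v δ) : b ∈ c.D ∧ ‖c.φ b - v‖ < δ := by
  simp only [A1, mem_ofPred_eq, not_forall, not_le] at h
  obtain ⟨h1, h2⟩ := h
  exact ⟨h1, h2⟩

theorem lt_two {b : M} (hb : ‖v‖ + δ ≤ 2) (h : ‖c.φ b - v‖ < δ) : ‖c.φ b‖ < 2 := by
  have := norm_sub_norm_le (c.φ b) v
  linarith

/-- the centre of a box -/
theorem ctr_box (hδ : 0 < δ) (hb : ‖v‖ + δ ≤ 2) : c.ψ v ∈ c.D ∧ c.φ (c.ψ v) = v := by
  have : ‖v‖ ≤ 2 := by linarith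
  exact ⟨c.ψ_mem v this, c.φψ v this⟩

theorem preconn_int : IsPreconnected {x | x ∈ c.D ∧ ‖c.φ x‖ < 2} := by
  have h1 : IsPreconnected {y : Fin n → ℝ | ‖y‖ < 2} := by
    have : {y : Fin n → ℝ | ‖y‖ < 2} = Metric.ball 0 2 := by
      ext y
      simp
    rw [this]
    exact (convex_ball _ _).isPreconnected
  have h2 := h1.image c.ψ (c.ψ_cont.mono fun y (hy : ‖y‖ < 2) => hy.le)
  have e : {x | x ∈ c.D ∧ ‖c.φ x‖ < 2} = c.ψ '' {y : Fin n → ℝ | ‖y‖ < 2} := by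
    ext x
    constructor
    · rintro ⟨hx, hx'⟩
      exact ⟨c.φ x, hx', c.ψφ x hx⟩
    · rintro ⟨y, hy, rfl⟩
      have hy' : ‖y‖ ≤ 2 := (show ‖y‖ < 2 from hy).le
      refine ⟨c.ψ_mem y hy', ?_⟩
      rw [c.φψ y hy']
      exact hy
  rw [e]
  exact h2

end Box

section Coord

variable {M : Type} [MetricSpace M] [CompactSpace M] {n : ℕ} {k : Type} [Field k]
  {c c' c'' : Cub M n} {v w : Fin n → ℝ} {δ η : ℝ}

/-- The coordinate of a box class. -/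
noncomputable def cc (e : Hr (tr (Unit × (Fin n → ℝ))) (on k) (cbE n (univ : Set Unit))
    (bdE n univ ∅) n ≃ₗ[k] k) (c : Cub M n) (hδ : 0 < δ) (hb : ‖v‖ + δ ≤ 2) :
    Hr (tr M) (on k) (univ : Set M) (c.A1 v δ) n →ₗ[k] k :=
  e.toLinearMap ∘ₗ pullR (on k) (isMap_th hδ.le hb) bdE_sub (mapsTo_th hδ.le hb) n

variable (e : Hr (tr (Unit × (Fin n → ℝ))) (on k) (cbE n (univ : Set Unit))
    (bdE n univ ∅) n ≃ₗ[k] k)

theorem cc_bij (h2 : Ok k) (hδ : 0 < δ) (hb : ‖v‖ + δ ≤ 2) :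
    Function.Bijective (cc e c hδ hb) :=
  e.bijective.comp (th_bij (c := c) h2 hδ hb n)

theorem cc_res (hδ : 0 < δ) (hη : 0 < η) (h : ‖v - w‖ + δ ≤ η) (hb : ‖w‖ + η ≤ 2)
    (hb' : ‖v‖ + δ ≤ 2) (hs : c.A1 w η ⊆ c.A1 v δ) (x : Hr (tr M) (on k) univ (c.A1 v δ) n) :
    cc e c hη hb (resR subset_rfl hs n x) = cc e c hδ hb' x :=
  congrArg e (th_res (c := c) hδ h hb hη.le hb' n x)

/-- The generator of a box. -/
noncomputable def gb (h2 : Ok k) (c : Cub M n) (hδ : 0 < δ) (hb : ‖v‖ + δ ≤ 2) :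
    Hr (tr M) (on k) (univ : Set M) (c.A1 v δ) n :=
  (LinearEquiv.ofBijective (cc e c hδ hb) (cc_bij e h2 hδ hb)).symm 1

theorem cc_gb (h2 : Ok k) (hδ : 0 < δ) (hb : ‖v‖ + δ ≤ 2) :
    cc e c hδ hb (gb e h2 c hδ hb) = 1 :=
  (LinearEquiv.ofBijective (cc e c hδ hb) (cc_bij e h2 hδ hb)).apply_symm_apply 1

theorem eq_gb (h2 : Ok k) (hδ : 0 < δ) (hb : ‖v‖ + δ ≤ 2)
    (x : Hr (tr M) (on k) (univ : Set M) (c.A1 v δ) n) :
    x = cc e c hδ hb x • gb e h2 c hδ hb := by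
  apply (cc_bij e h2 hδ hb).1
  rw [map_smul, cc_gb, smul_eq_mul, mul_one]

theorem gb_res (h2 : Ok k) (hδ : 0 < δ) (hη : 0 < η) (h : ‖v - w‖ + δ ≤ η)
    (hb : ‖w‖ + η ≤ 2) (hb' : ‖v‖ + δ ≤ 2) (hs : c.A1 w η ⊆ c.A1 v δ) :
    resR subset_rfl hs n (gb e h2 c hδ hb') = gb e h2 c hη hb := by
  apply (cc_bij e h2 hη hb).1
  rw [cc_res e hδ hη h hb hb' hs, cc_gb, cc_gb]

theorem h02 {n : ℕ} : ‖(0 : Fin n → ℝ)‖ + 2 ≤ 2 := by rw [norm_zero]; norm_num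

/-- The transition number of two charts at a point. -/
def Trn (h2 : Ok k) (c c' : Cub M n) (b : M) (t : k) : Prop :=
  ∃ (w : Fin n → ℝ) (η : ℝ) (hη : 0 < η) (hb : ‖w‖ + η ≤ 2) (hs : c.A1 0 2 ⊆ c'.A1 w η),
    b ∈ c'.D ∧ ‖c'.φ b - w‖ < η ∧ cc e c two_pos h02 (resR subset_rfl hs n (gb e h2 c' hη hb)) = t

theorem exists_trn (h2 : Ok k) {b : M} (hb : b ∈ c.D) (hb' : ‖c.φ b‖ < 2)
    (hc : b ∈ c'.D) (hc' : ‖c'.φ b‖ < 2) : ∃ t, Trn e h2 c c' b t := by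
  obtain ⟨η, hη, -, h1, h3⟩ := small_box (c := c') (compact_A1 (c := c) h02).isClosed hc hc'
    (notMem_A1 hb (by rwa [sub_zero])) one_pos
  exact ⟨_, c'.φ b, η, hη, h1, h3, hc, by rwa [sub_self, norm_zero], rfl⟩

theorem trn_uniq (h2 : Ok k) {b : M} {t t' : k} (h : Trn e h2 c c' b t)
    (h' : Trn e h2 c c' b t') : t = t' := by
  obtain ⟨w, η, hη, hb, hs, hc, hw, rfl⟩ := h
  obtain ⟨w', η', hη', hb', hs', -, hw', rfl⟩ := h'
  have h0 : 0 < min (η - ‖c'.φ b - w‖) (η' - ‖c'.φ b - w'‖) :=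
    lt_min (by linarith) (by linarith)
  have i1 : ‖c'.φ b - w‖ + min (η - ‖c'.φ b - w‖) (η' - ‖c'.φ b - w'‖) ≤ η := by
    linarith [min_le_left (η - ‖c'.φ b - w‖) (η' - ‖c'.φ b - w'‖)]
  have i2 : ‖c'.φ b - w'‖ + min (η - ‖c'.φ b - w‖) (η' - ‖c'.φ b - w'‖) ≤ η' := by
    linarith [min_le_right (η - ‖c'.φ b - w‖) (η' - ‖c'.φ b - w'‖)]
  have i3 : ‖c'.φ b‖ + min (η - ‖c'.φ b - w‖) (η' - ‖c'.φ b - w'‖) ≤ 2 := by
    have := norm_sub_norm_le (c'.φ b) w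
    linarith
  rw [← gb_res e h2 h0 hη i1 hb i3 (A1_anti i1), ← gb_res e h2 h0 hη' i2 hb' i3 (A1_anti i2),
    resR_resR, resR_resR]

theorem trn_self (h2 : Ok k) {b : M} (hb : b ∈ c.D) (hb' : ‖c.φ b‖ < 2) :
    Trn e h2 c c b 1 := by
  refine ⟨0, 2, two_pos, h02, subset_rfl, hb, by rwa [sub_zero], ?_⟩
  rw [cc_res e two_pos two_pos (by rw [sub_zero, norm_zero, zero_add]) h02 h02 subset_rfl, cc_gb]

theorem trn_trans (h2 : Ok k) {b : M} {s t : k} (h : Trn e h2 c c' b s)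
    (h' : Trn e h2 c' c'' b t) : Trn e h2 c c'' b (s * t) := by
  obtain ⟨w, η, hη, hb, hs, hc, hw, rfl⟩ := h
  have h'' := h'
  obtain ⟨w', η', hη', hb', hs', hc2, hw', rfl⟩ := h'
  obtain ⟨ζ, hζ, -, i1, i2⟩ := small_box (c := c'') (compact_A1 (c := c') hb).isClosed hc2
    (lt_two hb' hw') (notMem_A1 hc hw) one_pos
  -- the class of the small box
  set g := gb e h2 c'' hζ i1 with hg
  set x := resR subset_rfl i2 n g with hx
  have hw2 : ‖w - 0‖ + η ≤ 2 := by rwa [sub_zero]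
  have j1 : Trn e h2 c' c'' b (cc e c' hη hb x) := by
    refine ⟨c''.φ b, ζ, hζ, i1, (A1_anti hw2).trans i2, hc2, by rwa [sub_self, norm_zero], ?_⟩
    rw [← hg, ← resR_resR subset_rfl subset_rfl i2 (A1_anti hw2) g, ← hx]
    exact cc_res e hη two_pos hw2 h02 hb _ x
  have j2 := trn_uniq e h2 j1 h''
  refine ⟨c''.φ b, ζ, hζ, i1, hs.trans i2, hc2, by rwa [sub_self, norm_zero], ?_⟩
  rw [← hg, ← resR_resR subset_rfl subset_rfl i2 hs g, ← hx, eq_gb e h2 hη hb x, map_smul,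
    map_smul, smul_eq_mul, j2, mul_comm]

theorem trn_ne (h2 : Ok k) {b : M} (hb : b ∈ c.D) (hb' : ‖c.φ b‖ < 2)
    (hc : b ∈ c'.D) (hc' : ‖c'.φ b‖ < 2) {t : k} (h : Trn e h2 c c' b t) : t ≠ 0 := by
  obtain ⟨s, hs⟩ := exists_trn e h2 hc hc' hb hb'
  have h1 := trn_uniq e h2 (trn_trans e h2 h hs) (trn_self e h2 hb hb')
  intro h0
  rw [h0, zero_mul] at h1
  exact zero_ne_one h1

end Coord

/-- **Orientation.** -/
theorem exists_orient {M : Type} [MetricSpace M] [CompactSpace M] [SimplyConnectedSpace M]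
    [LocallyPathConnectedSpace M] {n : ℕ} {k : Type} [Field k] (h2 : Ok k)
    (loc : LocEuc M n) (e : Hr (tr (Unit × (Fin n → ℝ))) (on k) (cbE n (univ : Set Unit))
      (bdE n univ ∅) n ≃ₗ[k] k) :
    ∃ o : Cub M n → k, (∀ c, o c ≠ 0) ∧ ∀ (c c' : Cub M n) (w : Fin n → ℝ) (η : ℝ) (hη : 0 < η)
      (hb : ‖w‖ + η ≤ 2) (hs : c.A1 0 2 ⊆ c'.A1 w η),
      o c * cc e c two_pos h02 (resR subset_rfl hs n (gb e h2 c' hη hb)) = o c' := by
  classical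
  let U : Cub M n → Set M := fun c => {x | x ∈ c.D ∧ ‖c.φ x‖ < 2}
  have hex : ∀ (i j : Cub M n) (b : M), b ∈ U i ∩ U j → ∃ t : kˣ, Trn e h2 i j b t := by
    rintro i j b ⟨h1, h3⟩
    obtain ⟨t, ht⟩ := exists_trn e h2 h1.1 h1.2 h3.1 h3.2
    exact ⟨Units.mk0 t (trn_ne e h2 h1.1 h1.2 h3.1 h3.2 ht), ht⟩
  let T : Cub M n → Cub M n → M → kˣ := fun i j b =>
    if h : ∃ t : kˣ, Trn e h2 i j b t then h.choose else 1
  have hT : ∀ (i j : Cub M n) (b : M), b ∈ U i ∩ U j → Trn e h2 i j b (T i j b : k) := by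
    intro i j b hb
    have h := hex i j b hb
    have e1 : T i j b = h.choose := dif_pos h
    rw [e1]
    exact h.choose_spec
  have hTu : ∀ (i j : Cub M n) (b : M) (t : kˣ), b ∈ U i ∩ U j → Trn e h2 i j b (t : k) →
      T i j b = t := fun i j b t hb ht => Units.ext (trn_uniq e h2 (hT i j b hb) ht)
  obtain ⟨σ, hσ1, hσ2⟩ := exists_section (B := M) (G := kˣ) U (fun c => c.open_int)
    (fun b => by
      obtain ⟨c, hc, hc'⟩ := loc b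
      exact ⟨c, hc, by rw [hc', norm_zero]; exact two_pos⟩) T
    (fun i j b hb => by
      obtain ⟨w, η, hη, hb', hs, hc, hw, ht⟩ := hT i j b hb
      have hO := isOpen_box (c := j) hb'
      filter_upwards [hO.mem_nhds ⟨hc, hw⟩, i.open_int.mem_nhds hb.1, j.open_int.mem_nhds hb.2]
        with b' h1 h3 h4
      exact hTu i j b' _ ⟨h3, h4⟩ ⟨w, η, hη, hb', hs, h1.1, h1.2, ht⟩)
    (fun i b hb => hTu i i b 1 ⟨hb, hb⟩ (trn_self e h2 hb.1 hb.2))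
    (fun i j l b hb => (hTu i l b _ ⟨hb.1.1, hb.2⟩ (by
      rw [Units.val_mul]
      exact trn_trans e h2 (hT i j b hb.1) (hT j l b ⟨hb.1.2, hb.2⟩))).symm)
  have hconst : ∀ (c : Cub M n) (b b' : M), b ∈ U c → b' ∈ U c → σ c b = σ c b' := by
    intro c b b' hb hb'
    letI : TopologicalSpace kˣ := ⊥
    haveI : DiscreteTopology kˣ := ⟨rfl⟩
    refine (preconn_int (c := c)).constant (f := σ c) (fun x hx => ?_) hb hb'
    apply ContinuousAt.continuousWithinAt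
    exact continuousAt_const.congr ((hσ1 c x hx).mono fun y hy => hy.symm)
  refine ⟨fun c => ((σ c (c.ψ 0))⁻¹ : kˣ), fun c => Units.ne_zero _, ?_⟩
  intro c c' w η hη hb hs
  have hz : ∀ c : Cub M n, c.ψ 0 ∈ U c := fun c => by
    obtain ⟨h1, h3⟩ := ctr_box (c := c) (v := 0) two_pos h02
    exact ⟨h1, by rw [h3, norm_zero]; exact two_pos⟩
  obtain ⟨h1, h3⟩ := ctr_box (c := c') hη hb
  have h4 : c'.ψ w ∉ c'.A1 w η := notMem_A1 h1 (by rw [h3, sub_self, norm_zero]; exact hη)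
  have h5 := of_notMem_A1 fun h => h4 (hs h)
  rw [sub_zero] at h5
  have h6 : c'.ψ w ∈ U c' := ⟨h1, by rw [h3]; linarith⟩
  have h7 : Trn e h2 c c' (c'.ψ w) (cc e c two_pos h02 (resR subset_rfl hs n (gb e h2 c' hη hb))) :=
    ⟨w, η, hη, hb, hs, h1, by rw [h3, sub_self, norm_zero]; exact hη, rfl⟩
  have h8 := trn_uniq e h2 h7 (hT c c' _ ⟨h5, h6⟩)
  have h9 := hσ2 c c' (c'.ψ w) ⟨h5, h6⟩
  beta_reduce
  rw [h8, hconst c (c.ψ 0) (c'.ψ w) (hz c) h5, hconst c' (c'.ψ 0) (c'.ψ w) (hz c') h6, h9]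
  rw [← Units.val_mul]
  congr 1
  rw [mul_inv_rev, mul_assoc, inv_mul_cancel, mul_one]

end Cub

end Vale.Agent.P216.Ch2.D246
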