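import Vale.Agent.P216.Ch2.Ns2
import Vale.Agent.P216.Ch2.D246.Span3
import Vale.Agent.P216.Ch2.H456D.GlueT
import Vale.Agent.P216.Ch2.D907.Cub

/-!
# P216-D, block [D-THOM] : Thom classes of a closed connected topological manifold

`M` a compact connected metric space which is locally euclidean of dimension `n ≥ 1`, `k` a field
of characteristic `≠ 2`, `ω ≠ 0` in `H^n (M; k)`.

* `top_eq` (T1): `H^n (M; k) = k ω`; list form `exL_mul`.
* `thom` (T2): for all `r > 0` a class in `H^n (M × M, {dist ≥ r})` with all slices `ω`; list form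
  `exists_tau`: Thom cochains `τ : N929.Tau k M n ρ₁` all of whose slices are in the class of `w`.
* `lesA_box_bij` (T3): `H^n (M, M ∖ open box) → H^n (M)` is bijective.
-/

set_option linter.all false

open Set

namespace Vale.Agent.P216.Ch2.D246

open Vale.Agent.P216 Vale.Agent.P216.Ch2
open Vale.Agent.P216.D246

open Vale.Agent.P216.AS Vale.Agent.P216.Ch2.AS Vale.Agent.P216.H901 Vale.Agent.P216.Ch2.H901 Vale.Agent.P216.H83 Vale.Agent.P216.Ch2.H83 Vale.Agent.P216.Sl Vale.Agent.P216.PS Vale.Agent.P216.H133C Vale.Agent.P216.Ch2.H133C Vale.Agent.P216.H456C Vale.Agent.P216.Ch2.H456C Vale.Agent.P216.H456D Vale.Agent.P216.Ch2.H456D Vale.Agent.P216.C313 Vale.Agent.P216.Ch2.C313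

variable {M : Type} [MetricSpace M] [CompactSpace M] [ConnectedSpace M] {n : ℕ} {k : Type}
  [Field k]

theorem lEx_univ (h2 : Ok k) (hn : 1 ≤ n) (loc : LocEuc M n)
    {ω : Hr (tr M) (on k) (univ : Set M) ∅ n} (hω : ω ≠ 0) : LEx ω (univ : Set M) :=
  glueT h2 loc ω (fun c v δ hδ hb => (lesA_box_bij h2 hn loc hω c v δ hδ hb).1)
    (exists_iota h2 hn loc hω)

/-- **(T2)** -/
theorem thom (h2 : Ok k) (hn : 1 ≤ n) (loc : LocEuc M n)
    {ω : Hr (tr M) (on k) (univ : Set M) ∅ n} (hω : ω ≠ 0) {r : ℝ} (hr : 0 < r) :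
    ∃ x : Hr (tr (M × M)) (on k) (univ : Set (M × M)) {p : M × M | r ≤ dist p.1 p.2} n,
      ∀ b : M, pullR (on k) (isMap_slM b) (empty_subset _) (mapsTo_empty _ _) n
        (lesA k (univ : Set (M × M)) {p : M × M | r ≤ dist p.1 p.2} n x) = ω :=
  (lEx_univ h2 hn loc hω).class hr

/-- **(T1)** for list cocycles. -/
theorem exL_mul (h2 : Ok k) (hn : 1 ≤ n) (loc : LocEuc M n) {w : List M → k}
    (hw : CocL (univ : Set M) n w) (hw0 : ¬ ExL (univ : Set M) n w) {u : List M → k}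
    (hu : CocL (univ : Set M) n u) : ∃ a : k, ExL (univ : Set M) n fun l => u l - a * w l := by
  have h0 : absE k (univ : Set M) n (cls (tr M) (on k) w hw) ≠ 0 := fun h =>
    hw0 (cls_eq_zero.1 ((LinearEquiv.map_eq_zero_iff _).1 h))
  obtain ⟨a, ha⟩ := top_eq h2 hn loc h0 (absE k (univ : Set M) n (cls (tr M) (on k) u hu))
  rw [← map_smul] at ha
  have h1 := (absE k (univ : Set M) n).injective ha
  rw [cls_smul] at h1
  exact ⟨a, cls_eq_cls.1 h1⟩

/-- **(T2)** for list cocycles: Thom cochains with slices in the class of `w`. -/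
theorem exists_tau (h2 : Ok k) (hn : 1 ≤ n) (loc : LocEuc M n) {w : List M → k}
    (hw : CocL (univ : Set M) n w) (hw0 : ¬ ExL (univ : Set M) n w) {ρ₁ : ℝ} (hρ : 0 < ρ₁) :
    ∃ τ : N929.Tau k M n ρ₁, ∀ y : M, ExL (univ : Set M) n fun l =>
      τ.f (l.map fun x => (x, y)) - w l := by
  have h0 : absE k (univ : Set M) n (cls (tr M) (on k) w hw) ≠ 0 := fun h =>
    hw0 (cls_eq_zero.1 ((LinearEquiv.map_eq_zero_iff _).1 h))
  exact exists_tau_of_LEx hw (lEx_univ h2 hn loc h0) hρ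

section Manifold

variable {E : Type} [NormedAddCommGroup E] [NormedSpace ℝ E] [FiniteDimensional ℝ E]
  [ChartedSpace E M]

include E

/-- **(T2) for manifolds.** -/
theorem exists_tau_mfd (h2 : Ok k) (hE : Module.finrank ℝ E = n) (hn : 1 ≤ n)
    {w : List M → k} (hw : CocL (univ : Set M) n w) (hw0 : ¬ ExL (univ : Set M) n w) {ρ₁ : ℝ}
    (hρ : 0 < ρ₁) : ∃ τ : N929.Tau k M n ρ₁, ∀ y : M, ExL (univ : Set M) n fun l =>
      τ.f (l.map fun x => (x, y)) - w l :=
  exists_tau h2 hn (hE ▸ D907.cub E M) hw hw0 hρ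

/-- **(T1) for manifolds.** -/
theorem exL_mul_mfd (h2 : Ok k) (hE : Module.finrank ℝ E = n) (hn : 1 ≤ n)
    {w : List M → k} (hw : CocL (univ : Set M) n w) (hw0 : ¬ ExL (univ : Set M) n w)
    {u : List M → k} (hu : CocL (univ : Set M) n u) :
    ∃ a : k, ExL (univ : Set M) n fun l => u l - a * w l :=
  exL_mul h2 hn (hE ▸ D907.cub E M) hw hw0 hu

end Manifold

end Vale.Agent.P216.Ch2.D246
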