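import Vale.Agent.P216.Ch2.Ns2
import Vale.Agent.P216.Ch2.D246.NonZero
import Vale.Agent.P216.Ch2.D246.Thom

/-!
# P216-D, block [D-NDH] : `H^q (M) = 0` for `q > dim M`, `H^(dim M) (M) ≠ 0` for simply connected `M`
-/

set_option linter.all false

open Set Filter Topology

namespace Vale.Agent.P216.Ch2.D246

open Vale.Agent.P216 Vale.Agent.P216.Ch2
open Vale.Agent.P216.D246

open Vale.Agent.P216.AS Vale.Agent.P216.Ch2.AS Vale.Agent.P216.H901 Vale.Agent.P216.Ch2.H901 Vale.Agent.P216.H83 Vale.Agent.P216.Ch2.H83 Vale.Agent.P216.Sl Vale.Agent.P216.PS Vale.Agent.P216.H133C Vale.Agent.P216.Ch2.H133C Vale.Agent.P216.C313 Vale.Agent.P216.Ch2.C313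

namespace Cub

variable {M : Type} [MetricSpace M] [CompactSpace M] {n : ℕ} {k : Type} [Field k]
  {c c' c'' : Cub M n} {δ : ℝ}

/-- Compact subsets of a chart have no cohomology in the degrees `≥ n`. -/
theorem noH_sub (h2 : Ok k) (hδ : δ ≤ 2) {N : Set M} (hN : IsCompact N)
    (hND : N ⊆ c.Bx δ) {q : ℕ} (hq : n ≤ q) (hq1 : 1 ≤ q) : NoH k N ∅ q := by
  have cφ : ContinuousOn c.φ N := c.φ_cont.mono fun a ha => (hND ha).1
  have hB : ∀ u ∈ c.φ '' N, ‖u‖ ≤ 2 := by
    rintro _ ⟨a, ha, rfl⟩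
    exact (hND ha).2.trans hδ
  have cψ : ContinuousOn c.ψ (c.φ '' N) := c.ψ_cont.mono hB
  have cI : IsCompact (c.φ '' N) := hN.image_of_continuousOn cφ
  refine noH_of_inv (isMap_of hN cφ fun a ha => mem_image_of_mem _ ha) (mapsTo_empty _ _)
    (isMap_of cI cψ ?_) (mapsTo_empty _ _) (empty_subset _) (empty_subset _)
    (fun a ha => c.ψφ a (hND ha).1) q (H670.Top0.top0Goal k h2 n _ cI q hq hq1)
  rintro _ ⟨a, ha, rfl⟩
  rw [c.ψφ a (hND ha).1]
  exact ha

end Cub

open Cub

variable {M : Type} [MetricSpace M] [CompactSpace M] {n : ℕ} {k : Type} [Field k]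

/-- **(Z)** no cohomology above the dimension. -/
theorem noH_above (h2 : Ok k) (hn : 1 ≤ n) (loc : LocEuc M n) {q : ℕ} (hq : n < q) :
    NoH k (univ : Set M) ∅ q := by
  classical
  choose C hC hC0 using loc
  obtain ⟨q, rfl⟩ : ∃ q', q = q' + 1 := ⟨q - 1, by omega⟩
  have h01 : ‖(0 : Fin n → ℝ)‖ + 1 ≤ 2 := by rw [norm_zero]; norm_num
  have hcl : ∀ T : Finset M, IsCompact (⋃ b ∈ T, (C b).Bx 1) := fun T =>
    T.isCompact_biUnion fun b _ => compact_Bx
  have main : ∀ T : Finset M, NoH k (⋃ b ∈ T, (C b).Bx 1) ∅ (q + 1) := by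
    intro T
    induction T using Finset.induction_on with
    | empty =>
      have e : ∀ A : Set M, A = ∅ → NoH k A ∅ (q + 1) := by
        rintro A rfl
        exact noH_self _ _
      exact e _ (by simp)
    | insert b T hb ih =>
      have e1 : (⋃ d ∈ insert b T, (C d).Bx 1) = (⋃ d ∈ T, (C d).Bx 1) ∪ (C b).Bx 1 := by
        rw [Finset.set_biUnion_insert, union_comm]
      rw [e1]
      intro x
      refine H670.Top0.glue h2 (hcl T) (compact_Bx (c := C b)) rfl subset_union_left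
        subset_union_right q (fun w => ?_) x (ih _)
        (noH_sub (c := C b) h2 one_le_two compact_Bx subset_rfl (by omega) (by omega) _)
      rw [show w = 0 from noH_sub (c := C b) h2 one_le_two (compact_Bx.inter (hcl T))
        inter_subset_left (by omega) (by omega) _, map_zero]
  obtain ⟨T, hT⟩ := isCompact_univ.elim_nhds_subcover
    (fun b : M => {a | a ∈ (C b).D ∧ ‖(C b).φ a - 0‖ < 1}) fun b _ => by
      refine (isOpen_box h01).mem_nhds ⟨hC b, ?_⟩
      rw [hC0, sub_zero, norm_zero]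
      exact one_pos
  have hU : (⋃ b ∈ T, (C b).Bx 1) = univ := by
    refine eq_univ_of_forall fun a => ?_
    obtain ⟨b, hb, hb'⟩ := mem_iUnion₂.1 (hT.2 (mem_univ a))
    refine mem_iUnion₂.2 ⟨b, hb, hb'.1, ?_⟩
    have := hb'.2
    rw [sub_zero] at this
    exact this.le
  have h := main T
  rw [hU] at h
  exact h

/-- **(Z)** for list cocycles. -/
theorem exL_above (h2 : Ok k) (hn : 1 ≤ n) (loc : LocEuc M n) {q : ℕ} (hq : n < q)
    {u : List M → k} (hu : CocL (univ : Set M) q u) : ExL (univ : Set M) q u := by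
  have h := noH_above h2 hn loc hq (absE k (univ : Set M) q (cls (tr M) (on k) u hu))
  exact cls_eq_zero.1 ((LinearEquiv.map_eq_zero_iff _).1 h)

/-- **(NZ)** -/
theorem exists_top_ne [SimplyConnectedSpace M] [LocallyPathConnectedSpace M] (h2 : Ok k)
    (hn : 1 ≤ n) (loc : LocEuc M n) :
    ∃ ω : Hr (tr M) (on k) (univ : Set M) ∅ n, ω ≠ 0 := by
  obtain ⟨e⟩ := cube_equiv (k := k) h2 n
  obtain ⟨b⟩ : Nonempty M := inferInstance
  obtain ⟨c, -, -⟩ := loc b
  exact ⟨_, lesA_gb_ne e h2 hn loc c⟩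

/-- **(NZ)** for list cocycles. -/
theorem exists_not_exL [SimplyConnectedSpace M] [LocallyPathConnectedSpace M] (h2 : Ok k)
    (hn : 1 ≤ n) (loc : LocEuc M n) :
    ∃ w : List M → k, Nrm w ∧ CocL (univ : Set M) n w ∧ ¬ ExL (univ : Set M) n w := by
  obtain ⟨ω, hω⟩ := exists_top_ne (M := M) (k := k) h2 hn loc
  obtain ⟨w, hw, hN, h⟩ := exists_cls ((absE k (univ : Set M) n).symm ω)
  refine ⟨w, hN, hw, fun hex => hω ?_⟩
  rw [cls_eq_zero.2 hex] at h
  rw [← (absE k (univ : Set M) n).apply_symm_apply ω, ← h, map_zero]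

section Manifold

variable {E : Type} [NormedAddCommGroup E] [NormedSpace ℝ E] [FiniteDimensional ℝ E]
  [ChartedSpace E M]

include E

theorem exL_above_mfd (h2 : Ok k) (hE : Module.finrank ℝ E = n) (hn : 1 ≤ n) {q : ℕ}
    (hq : n < q) {u : List M → k} (hu : CocL (univ : Set M) q u) : ExL (univ : Set M) q u :=
  exL_above h2 hn (hE ▸ D907.cub E M) hq hu

theorem exists_not_exL_mfd [SimplyConnectedSpace M] (h2 : Ok k)
    (hE : Module.finrank ℝ E = n) (hn : 1 ≤ n) :
    ∃ w : List M → k, Nrm w ∧ CocL (univ : Set M) n w ∧ ¬ ExL (univ : Set M) n w := by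
  haveI : LocallyPathConnectedSpace M := ChartedSpace.locallyPathConnectedSpace E M
  exact exists_not_exL h2 hn (hE ▸ D907.cub E M)

/-- **`n = d h`.** The dimension is the largest degree in which there is a non exact cocycle. -/
theorem finrank_eq [SimplyConnectedSpace M] (h2 : Ok k) (hn : 1 ≤ Module.finrank ℝ E)
    {D : ℕ} {w : List M → k} (hw : CocL (univ : Set M) D w) (hw0 : ¬ ExL (univ : Set M) D w)
    (hD : ∀ q, D < q → ∀ u : List M → k, CocL (univ : Set M) q u → ExL (univ : Set M) q u) :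
    Module.finrank ℝ E = D := by
  obtain ⟨v, -, hv, hv0⟩ := exists_not_exL_mfd (M := M) (k := k) (E := E) h2 rfl hn
  by_contra hne
  rcases lt_or_gt_of_ne hne with h | h
  · exact hw0 (exL_above_mfd (E := E) h2 rfl hn h hw)
  · exact hv0 (hD _ h v hv)

end Manifold

end Vale.Agent.P216.Ch2.D246
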