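import Vale.Agent.P216.Ch2.Ns2
import Vale.Agent.P216.Ch2.D246.Dim

/-!
# P216-T, row B' : the complement of an open coordinate box
-/

set_option linter.all false

open Set Filter Topology

namespace Vale.Agent.P216.Ch2.D246

open Vale.Agent.P216 Vale.Agent.P216.Ch2
open Vale.Agent.P216.D246

open Vale.Agent.P216.AS Vale.Agent.P216.Ch2.AS Vale.Agent.P216.H901 Vale.Agent.P216.Ch2.H901 Vale.Agent.P216.H83 Vale.Agent.P216.Ch2.H83 Vale.Agent.P216.Sl Vale.Agent.P216.PS Vale.Agent.P216.H133C Vale.Agent.P216.Ch2.H133C Vale.Agent.P216.C313 Vale.Agent.P216.Ch2.C313 Cub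

section Cube

variable {k : Type} [Field k]

/-- `H^q (pt) = 0` for `q ≥ 1` -/
theorem noH_point (h2 : Ok k) {q : ℕ} (hq : 1 ≤ q) :
    NoH k (cbE 0 (univ : Set Unit)) (bdE 0 univ ∅) q := by
  have hd : bdE 0 (univ : Set Unit) ∅ = ∅ := by
    ext p
    simp only [bdE, mem_empty_iff_false, false_or, IsEmpty.exists_iff, and_false, mem_ofPred_eq]
  have h1 : IsMap (tr (Unit × (Fin 0 → ℝ))) (tr (Fin 0 → ℝ)) (cbE 0 (univ : Set Unit)) univ
      Prod.snd :=
    { mapsX := fun _ _ => mem_univ _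
      eqv := fun i => i.elim
      uc := fun ε hε => ⟨ε, hε, fun x _ y _ h => by
        rw [Prod.dist_eq] at h
        exact (le_max_right _ _).trans_lt h⟩ }
  have h3 : IsMap (tr (Fin 0 → ℝ)) (tr (Unit × (Fin 0 → ℝ))) univ (cbE 0 (univ : Set Unit))
      (fun y => ((), y)) :=
    { mapsX := fun _ _ => ⟨mem_univ _, fun i => i.elim0⟩
      eqv := fun i => i.elim
      uc := fun ε hε => ⟨ε, hε, fun x _ y _ h => by
        rw [Prod.dist_eq, dist_self]
        exact max_lt hε h⟩ }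
  refine noH_of_inv (B := ∅) h1 (fun p hp => ?_) h3 (mapsTo_empty _ _) bdE_sub (empty_subset _)
    (fun p _ => rfl) q (H670.Top0.top0Goal k h2 0 univ ?_ q (Nat.zero_le _) hq)
  · rw [hd] at hp
    exact hp.elim
  · exact isCompact_univ

/-- `H^0 (I^(n+1), ∂I^(n+1)) = 0` -/
theorem noH_cube_zero (n : ℕ) :
    NoH k (cbE (n + 1) (univ : Set Unit)) (bdE (n + 1) univ ∅) 0 := by
  intro z
  obtain ⟨c, hc, rfl⟩ := H.exists_mk z
  rw [mem_Zc_rel] at hc
  obtain ⟨-, ⟨ε₁, hε₁, h1⟩, ε₂, hε₂, h2⟩ := hc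
  rw [H.mk_eq_zero, mem_Bc_zero]
  refine ⟨eqv_triv _, 1, one_pos, fun x hx => ?_⟩
  -- the path `t ↦ (u, t • y)`
  obtain ⟨N, hN⟩ := exists_nat_gt (‖(x 0).2‖ / ε₂)
  have hNp : (0 : ℝ) < N := lt_of_le_of_lt (by positivity) hN
  let P : ℕ → Unit × (Fin (n + 1) → ℝ) := fun j => ((x 0).1, ((j : ℝ) / N) • (x 0).2)
  have hP : ∀ j ≤ N, P j ∈ cbE (n + 1) (univ : Set Unit) := by
    intro j hj
    have hj' : (j : ℝ) / N ≤ 1 := (div_le_one hNp).2 (by exact_mod_cast hj)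
    have hj0 : (0 : ℝ) ≤ (j : ℝ) / N := by positivity
    refine ⟨mem_univ _, fun i => ?_⟩
    have := (hx.1 0).2 i
    exact ⟨mul_nonneg hj0 this.1, mul_le_one₀ hj' this.1 this.2⟩
  have main : ∀ j ≤ N, c (fun _ => P j) = 0 := by
    intro j
    induction j with
    | zero =>
      intro h0
      refine h1 _ ⟨fun _ => ⟨hP 0 h0, Or.inr ⟨0, Or.inl ?_⟩⟩, fun _ _ => by
        rw [dist_self]; exact hε₁⟩
      change ((0 : ℕ) : ℝ) / N * (x 0).2 0 = 0
      simp
    | succ j ih =>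
      intro hj
      have ih' := ih (by omega)
      have hd : dist (P j) (P (j + 1)) < ε₂ := by
        rw [Prod.dist_eq]
        refine max_lt (by rw [dist_self]; exact hε₂) ?_
        change dist ((((j : ℕ) : ℝ) / N) • (x 0).2) ((((j + 1 : ℕ) : ℝ) / N) • (x 0).2) < ε₂
        rw [dist_eq_norm, ← sub_smul, norm_smul]
        have e : ((j : ℕ) : ℝ) / N - ((j + 1 : ℕ) : ℝ) / N = -(1 / N) := by
          push_cast
          ring
        rw [e, norm_neg, Real.norm_of_nonneg (by positivity), one_div, inv_mul_eq_div,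
          div_lt_iff₀ hNp]
        rw [div_lt_iff₀ hε₂] at hN
        linarith
      have hm : ∀ i : Fin 2, Matrix.vecCons (P j) (fun _ => P (j + 1)) i = P j ∨
          Matrix.vecCons (P j) (fun _ => P (j + 1)) i = P (j + 1) := by
        intro i
        refine Fin.cases (Or.inl rfl) (fun i => Or.inr rfl) i
      have h3 := h2 (Matrix.vecCons (P j) (fun _ => P (j + 1))) ⟨fun i => by
          rcases hm i with h | h <;> rw [h]
          · exact hP _ (by omega)
          · exact hP _ hj, fun i i' => by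
          rcases hm i with h | h <;> rcases hm i' with h' | h' <;> rw [h, h']
          · rw [dist_self]; exact hε₂
          · exact hd
          · rw [dist_comm]; exact hd
          · rw [dist_self]; exact hε₂⟩
      rw [P265.AS.d_cons, P265.AS.d_zero_apply] at h3
      have e1 : Matrix.vecCons (P j) (Matrix.vecTail (fun _ : Fin 1 => P (j + 1))) =
          fun _ : Fin 1 => P j := by
        funext i
        rw [Fin.fin_one_eq_zero i]
        rfl
      rw [e1, ih', sub_zero] at h3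
      exact h3
  have := main N le_rfl
  have e : x = fun _ => P N := by
    funext i
    rw [Fin.fin_one_eq_zero i]
    refine Prod.ext rfl ?_
    change (x 0).2 = ((N : ℝ) / N) • (x 0).2
    rw [div_self hNp.ne', one_smul]
  rw [e]
  exact this

/-- `H^q (I^n, ∂I^n) = 0` for `q ≠ n` -/
theorem noH_cube (h2 : Ok k) : ∀ (n q : ℕ), q ≠ n →
    NoH k (cbE n (univ : Set Unit)) (bdE n univ ∅) q
  | 0, q, h => noH_point h2 (by omega)
  | n + 1, 0, _ => noH_cube_zero n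
  | n + 1, q + 1, h => fun z => (susC_bij h2 n (univ : Set Unit) ∅ q).1 (by
      rw [map_zero]
      exact noH_cube h2 n q (by omega) _)

end Cube

section Comp

variable {M : Type} [MetricSpace M] [CompactSpace M] {n : ℕ} {k : Type} [Field k]

/-- `H^q (M, M ∖ box) = 0` for `q ≠ n` -/
theorem noH_pair (h2 : Ok k) (c : Cub M n) (v : Fin n → ℝ) (δ : ℝ) (hδ : 0 < δ)
    (hb : ‖v‖ + δ ≤ 2) {q : ℕ} (hq : q ≠ n) : NoH k (univ : Set M) (c.A1 v δ) q := by
  intro z
  have hbij := th_bij (c := c) (k := k) h2 hδ hb q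
  apply hbij.1
  rw [map_zero]
  exact noH_cube h2 n q hq _

variable [ConnectedSpace M]

/-- `H^q (M ∖ box) → H^(q+1) (M, M ∖ box)` vanishes -/
theorem lesD_box (h2 : Ok k) (hn : 1 ≤ n) (loc : LocEuc M n)
    {ω : Hr (tr M) (on k) (univ : Set M) ∅ n} (hω : ω ≠ 0) (c : Cub M n) (v : Fin n → ℝ) (δ : ℝ)
    (hδ : 0 < δ) (hb : ‖v‖ + δ ≤ 2) (q : ℕ) (x : Hr (tr M) (on k) (c.A1 v δ) ∅ q) :
    lesD k (univ : Set M) (c.A1 v δ) q x = 0 := by
  have h3 : lesA k (univ : Set M) (c.A1 v δ) (q + 1) (lesD k (univ : Set M) (c.A1 v δ) q x) = 0 :=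
    (les_ex3 k (subset_univ _) q _).2 ⟨x, rfl⟩
  by_cases hq : q + 1 = n
  · subst hq
    apply (lesA_box_bij h2 hn loc hω c v δ hδ hb).1
    rw [map_zero]
    exact h3
  · exact noH_pair h2 c v δ hδ hb hq _

/-- classes of `M ∖ box` extend -/
theorem lesB_box (h2 : Ok k) (hn : 1 ≤ n) (loc : LocEuc M n)
    {ω : Hr (tr M) (on k) (univ : Set M) ∅ n} (hω : ω ≠ 0) (c : Cub M n) (v : Fin n → ℝ) (δ : ℝ)
    (hδ : 0 < δ) (hb : ‖v‖ + δ ≤ 2) (q : ℕ) (x : Hr (tr M) (on k) (c.A1 v δ) ∅ q) :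
    ∃ y, lesB k (subset_univ (c.A1 v δ)) q y = x :=
  (les_ex2 k (subset_univ _) q x).1 (lesD_box h2 hn loc hω c v δ hδ hb q x)

/-- The complement of an open box of a homology sphere is acyclic. -/
theorem noH_comp (h2 : Ok k) (hn : 1 ≤ n) (loc : LocEuc M n)
    {ω : Hr (tr M) (on k) (univ : Set M) ∅ n} (hω : ω ≠ 0) (c : Cub M n) (v : Fin n → ℝ) (δ : ℝ)
    (hδ : 0 < δ) (hb : ‖v‖ + δ ≤ 2) {q : ℕ} (hM : q ≠ n → NoH k (univ : Set M) ∅ q) :
    NoH k (c.A1 v δ) ∅ q := by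
  intro x
  obtain ⟨y, rfl⟩ := lesB_box h2 hn loc hω c v δ hδ hb q x
  by_cases hq : q = n
  · subst hq
    exact (les_ex1 k (subset_univ _) q y).2 ((lesA_box_bij h2 hn loc hω c v δ hδ hb).2 y)
  · rw [hM hq y, map_zero]

/-- list form -/
theorem exL_comp (h2 : Ok k) (hn : 1 ≤ n) (loc : LocEuc M n)
    {ω : Hr (tr M) (on k) (univ : Set M) ∅ n} (hω : ω ≠ 0) (c : Cub M n) (v : Fin n → ℝ) (δ : ℝ)
    (hδ : 0 < δ) (hb : ‖v‖ + δ ≤ 2) {q : ℕ}
    (hM : q ≠ n → ∀ w : List M → k, Nrm w → CocL (univ : Set M) q w → ExL (univ : Set M) q w)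
    {w : List M → k} (hw : CocL (c.A1 v δ) q w) : ExL (c.A1 v δ) q w := by
  have h0 : NoH k (c.A1 v δ) ∅ q := by
    refine noH_comp h2 hn loc hω c v δ hδ hb fun hq y => ?_
    obtain ⟨u, hu, hN, h⟩ := exists_cls ((absE k (univ : Set M) q).symm y)
    rw [cls_eq_zero.2 (hM hq u hN hu)] at h
    rw [← LinearEquiv.map_eq_zero_iff (absE k (univ : Set M) q).symm, ← h]
  have h := h0 (absE k (c.A1 v δ) q (cls (tr M) (on k) w hw))
  exact cls_eq_zero.1 ((LinearEquiv.map_eq_zero_iff _).1 h)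

/-- cocycles of `M ∖ box` extend to `M` up to coboundaries -/
theorem exists_ext_comp (h2 : Ok k) (hn : 1 ≤ n) (loc : LocEuc M n)
    {ω : Hr (tr M) (on k) (univ : Set M) ∅ n} (hω : ω ≠ 0) (c : Cub M n) (v : Fin n → ℝ) (δ : ℝ)
    (hδ : 0 < δ) (hb : ‖v‖ + δ ≤ 2) {q : ℕ} {w : List M → k} (hw : CocL (c.A1 v δ) q w) :
    ∃ W : List M → k, Nrm W ∧ CocL (univ : Set M) q W ∧ ExL (c.A1 v δ) q fun l => W l - w l := by
  obtain ⟨y, hy⟩ := lesB_box h2 hn loc hω c v δ hδ hb q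
    (absE k (c.A1 v δ) q (cls (tr M) (on k) w hw))
  obtain ⟨u, hu, hN, h⟩ := exists_cls ((absE k (univ : Set M) q).symm y)
  refine ⟨u, hN, hu, ?_⟩
  have hu' : CocL (c.A1 v δ) q u := hu.mono (subset_univ _)
  have e1 : cls (tr M) (on k) u hu' = cls (tr M) (on k) w hw := by
    apply (absE k (c.A1 v δ) q).injective
    rw [← hy]
    have e2 : y = absE k (univ : Set M) q (cls (tr M) (on k) u hu) := by
      rw [h, LinearEquiv.apply_symm_apply]
    rw [e2]
    rfl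
  exact cls_eq_cls.1 e1

end Comp

section Mfd

variable {E : Type} [NormedAddCommGroup E] [NormedSpace ℝ E] [FiniteDimensional ℝ E]
  {M : Type} [MetricSpace M] [CompactSpace M] [ChartedSpace E M] [SimplyConnectedSpace M]
  {n : ℕ} {k : Type} [Field k]

include E

/-- list form, manifolds -/
theorem exL_comp_mfd (h2 : Ok k) (hE : Module.finrank ℝ E = n) (hn : 1 ≤ n) (c : Cub M n)
    (v : Fin n → ℝ) (δ : ℝ) (hδ : 0 < δ) (hb : ‖v‖ + δ ≤ 2) {q : ℕ}
    (hM : q ≠ n → ∀ w : List M → k, Nrm w → CocL (univ : Set M) q w → ExL (univ : Set M) q w)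
    {w : List M → k} (hw : CocL (c.A1 v δ) q w) : ExL (c.A1 v δ) q w := by
  haveI : LocallyPathConnectedSpace M := ChartedSpace.locallyPathConnectedSpace E M
  have loc : LocEuc M n := hE ▸ D907.cub E M
  obtain ⟨ω, hω⟩ := exists_top_ne (M := M) (k := k) h2 hn loc
  exact exL_comp h2 hn loc hω c v δ hδ hb hM hw

/-- extension, manifolds -/
theorem exists_ext_mfd (h2 : Ok k) (hE : Module.finrank ℝ E = n) (hn : 1 ≤ n) (c : Cub M n)
    (v : Fin n → ℝ) (δ : ℝ) (hδ : 0 < δ) (hb : ‖v‖ + δ ≤ 2) {q : ℕ} {w : List M → k}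
    (hw : CocL (c.A1 v δ) q w) :
    ∃ W : List M → k, Nrm W ∧ CocL (univ : Set M) q W ∧ ExL (c.A1 v δ) q fun l => W l - w l := by
  haveI : LocallyPathConnectedSpace M := ChartedSpace.locallyPathConnectedSpace E M
  have loc : LocEuc M n := hE ▸ D907.cub E M
  obtain ⟨ω, hω⟩ := exists_top_ne (M := M) (k := k) h2 hn loc
  exact exists_ext_comp h2 hn loc hω c v δ hδ hb hw

end Mfd

end Vale.Agent.P216.Ch2.D246
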